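/-
Row 210 (S0432), layer CD (architect helper269): consequences of the frozen `CurvatureDimension m K N`, `K < 0`.
DEFINITIONS of the layer.   Map of the layer: header of `R210/CD/Ifc.lean`.
-/
import Claimed.Agent.R210.Defs

set_option autoImplicit false

open Claims.C0366 Claims.C0366.WeakHessian
open Set Filter MeasureTheory
open scoped ENNReal NNReal Topology

namespace Claimed.Agent.R210.CD.Defs

noncomputable section

variable {X : Type*} [MetricSpace X] [MeasurableSpace X] [BorelSpace X]

/-- `π` is a plan as provided by the frozen `CurvatureDimension m K N` for the pair `(μ₀, μ₁)`. -/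
structure cd_Plan (m : Measure X) (K N : ℝ) (μ₀ μ₁ : Measure X) (π : Measure (Curve X)) : Prop where
  prob : IsProbabilityMeasure π
  geo : ∀ᵐ γ ∂π, IsGeodesic γ
  opt : IsOptimalCoupling (endpointCoupling π) μ₀ μ₁
  ineq : ∀ N' : ℝ, N ≤ N' → ∀ t : Time,
    (∫⁻ γ,
      (tauCoeff K N' (1 - (t : ℝ)) (dist (γ timeZero) (γ timeOne)) *
        (μ₀.rnDeriv m (γ timeZero)) ^ (-1 / N') +
      tauCoeff K N' (t : ℝ) (dist (γ timeZero) (γ timeOne)) *
        (μ₁.rnDeriv m (γ timeOne)) ^ (-1 / N')) ∂π) ≤
    renyiIntegral m (interpolation π t) N'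

/-- the set where the density of the absolutely continuous part of `ν` is positive. -/
def cd_pos (m ν : Measure X) : Set X := {x | 0 < ν.rnDeriv m x}

/-- normalised restriction of `m` to `A`. -/
def cd_unif (m : Measure X) (A : Set X) : Measure X := (m A)⁻¹ • m.restrict A

end

end Claimed.Agent.R210.CD.Defs
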