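/-
Row 210 (S0432), layer CD (architect helper269), file Basic: measure-theoretic basics (no curvature).
   e_t γ = γ t is continuous on `Curve X = C(Time, X)`, hence Borel measurable.     `interpolation π t = map e_t π`,  `endpointCoupling π = map (e_0, e_1) π`   (frozen, by `rfl`).
   ALREADY PROVED in `R210/CD/Ent/Base.lean` (helper988), use them:  cd_ent_sigmaFinite, cd_ent_measurable_eval, cd_ent_measurable_pair, cd_ent_map_zero, cd_ent_map_one, cd_ent_ae_zero, cd_ent_ae_one, cd_ent_interp_prob.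
   In `R210/CD/Ent/Dens.lean`: cd_ent_ac (μ ≪ m), cd_ent_rn_pos;   in `R210/CD/Ent/Track.lean`: cd_ent_conc.
-/
import Claimed.Agent.R210.CD.Defs
import Claimed.Agent.R210.CD.Ent.Track
import Claimed.Agent.R210.CD.Ent.Dens

set_option autoImplicit false

open Claims.C0366 Claims.C0366.WeakHessian
open Set Filter MeasureTheory
open scoped ENNReal NNReal Topology
open Claimed.Agent.R210.Defs Claimed.Agent.R210.CD.Defs Claimed.Agent.R210.CD.Ent.Base
  Claimed.Agent.R210.CD.Ent.Dens Claimed.Agent.R210.CD.Ent.Track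

namespace Claimed.Agent.R210.CD.Basic

noncomputable section

variable {X : Type*} [MetricSpace X] [MeasurableSpace X] [BorelSpace X]
variable {m μ ν μ₀ μ₁ : Measure X} {π : Measure (Curve X)} {M : ℝ≥0} {o : X} {R : ℝ}

/-- `ae_of_ae_map`. -/
theorem cd_ae_interp (t : Time) {p : X → Prop} (hp : ∀ᵐ x ∂(interpolation π t), p x) :
    ∀ᵐ γ ∂π, p (γ t) :=
  ae_of_ae_map (cd_ent_measurable_eval t).aemeasurable hp

theorem cd_ae_endpoints {p : X × X → Prop} (hp : ∀ᵐ z ∂(endpointCoupling π), p z) :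
    ∀ᵐ γ ∂π, p (γ timeZero, γ timeOne) :=
  ae_of_ae_map cd_ent_measurable_pair.aemeasurable hp

theorem cd_bdd_conc_ae (h : BddDens m μ M o R) : ∀ᵐ x ∂μ, dist x o ≤ R := by
  have := h.conc
  rw [measure_eq_zero_iff_ae_notMem] at this
  filter_upwards [this] with x hx
  simpa using hx

/-- `edist x o ≤ ofReal R` a.e. -/
theorem cd_bdd_secondMoment (h : BddDens m μ M o R) : HasSecondMoment μ := by
  have := h.prob
  refine ⟨o, ?_⟩
  calc ∫⁻ x, (edist x o) ^ 2 ∂μ ≤ ∫⁻ _, (ENNReal.ofReal R) ^ 2 ∂μ := by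
        refine lintegral_mono_ae ?_
        filter_upwards [cd_bdd_conc_ae h] with x hx
        rw [edist_dist]
        gcongr
    _ = (ENNReal.ofReal R) ^ 2 := by simp
    _ < ∞ := by simp

/-- `∫_A rnDeriv dm ≤ μ A ≤ M m A`  (`Measure.setLIntegral_rnDeriv_le`, `ae_le_of_forall_setLIntegral_le_of_sigmaFinite`). -/
theorem cd_bdd_rnDeriv_le [SigmaFinite m] (h : BddDens m μ M o R) : ∀ᵐ x ∂m, μ.rnDeriv m x ≤ M := by
  refine ae_le_of_forall_setLIntegral_le_of_sigmaFinite (Measure.measurable_rnDeriv μ m) ?_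
  intro s hs _
  calc ∫⁻ x in s, μ.rnDeriv m x ∂m ≤ μ s := Measure.setLIntegral_rnDeriv_le s
    _ ≤ ((M : ℝ≥0∞) • m) s := h.le s
    _ = ∫⁻ _ in s, (M : ℝ≥0∞) ∂m := by simp

/-- the normalised restriction of `m` to a bounded set of positive measure. -/
theorem cd_unif_bddDens {A : Set X} (h0 : m A ≠ 0) (h1 : m A ≠ ∞)
    (hAo : A ⊆ Metric.closedBall o R) : BddDens m (cd_unif m A) ((m A)⁻¹).toNNReal o R := by
  have hinv : (m A)⁻¹ ≠ ∞ := ENNReal.inv_ne_top.2 h0
  refine ⟨⟨?_⟩, ?_, ?_⟩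
  · simp only [cd_unif, Measure.smul_apply, Measure.restrict_apply MeasurableSet.univ, univ_inter, smul_eq_mul]
    exact ENNReal.inv_mul_cancel h0 h1
  · rw [ENNReal.coe_toNNReal hinv]
    unfold cd_unif
    intro s
    simp only [Measure.smul_apply, smul_eq_mul]
    gcongr
    exact Measure.restrict_le_self
  · simp only [cd_unif, Measure.smul_apply, smul_eq_mul]
    rw [Measure.restrict_apply Metric.isClosed_closedBall.measurableSet.compl]
    have : (Metric.closedBall o R)ᶜ ∩ A = ∅ := by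
      ext x
      simp only [mem_inter_iff, mem_compl_iff, mem_empty_iff_false, iff_false, not_and]
      exact fun hx hxA => hx (hAo hxA)
    rw [this]
    simp

theorem cd_unif_conc {A : Set X} (hA : MeasurableSet A) : ∀ᵐ x ∂(cd_unif m A), x ∈ A := by
  unfold cd_unif
  exact Measure.ae_smul_measure (ae_restrict_mem hA) _

theorem cd_measurableSet_pos (m ν : Measure X) : MeasurableSet (cd_pos m ν) :=
  measurableSet_lt measurable_const (Measure.measurable_rnDeriv ν m)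

/-- `∫_{Sᶜ} rnDeriv dm ≤ ν Sᶜ = 0` (`Measure.setLIntegral_rnDeriv_le`), so `rnDeriv = 0` `m`-a.e. on `Sᶜ`. -/
theorem cd_pos_le {S : Set X} (hS : MeasurableSet S) (hν : ν Sᶜ = 0) : m (cd_pos m ν) ≤ m S := by
  have h1 : ∫⁻ x in Sᶜ, ν.rnDeriv m x ∂m = 0 :=
    le_antisymm ((Measure.setLIntegral_rnDeriv_le Sᶜ).trans hν.le) bot_le
  rw [lintegral_eq_zero_iff (Measure.measurable_rnDeriv ν m)] at h1
  have h2 : ∀ᵐ x ∂m, x ∈ Sᶜ → ν.rnDeriv m x = 0 := (ae_restrict_iff' hS.compl).1 h1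
  refine measure_mono_ae ?_
  filter_upwards [h2] with x hx hxp
  by_contra hxS
  have := hx hxS
  have hxp' : 0 < ν.rnDeriv m x := hxp
  rw [this] at hxp'
  exact lt_irrefl _ hxp'

/-- geodesics: position of the point at time `t`. -/
theorem cd_geo_left {γ : Curve X} (h : IsGeodesic γ) (t : Time) :
    dist (γ timeZero) (γ t) = t * dist (γ timeZero) (γ timeOne) := by
  rw [h timeZero t]
  have : |((timeZero : Time) : ℝ) - (t : ℝ)| = t := by
    show |(0 : ℝ) - (t : ℝ)| = t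
    rw [zero_sub, abs_neg, abs_of_nonneg t.2.1]
  rw [this]

theorem cd_geo_right {γ : Curve X} (h : IsGeodesic γ) (t : Time) :
    dist (γ t) (γ timeOne) = (1 - t) * dist (γ timeZero) (γ timeOne) := by
  rw [h t timeOne]
  have : |(t : ℝ) - ((timeOne : Time) : ℝ)| = 1 - t := by
    show |(t : ℝ) - (1 : ℝ)| = 1 - t
    rw [abs_sub_comm, abs_of_nonneg (by linarith [t.2.2])]
  rw [this]

/-- any coupling of measures concentrated on balls is concentrated on `{d ≤ R₀ + d(o₀,o₁) + R₁}`. -/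
theorem cd_coupling_dist_le {q : Measure (X × X)} {M₀ M₁ : ℝ≥0} {o₀ o₁ : X} {R₀ R₁ : ℝ}
    (h₀ : BddDens m μ₀ M₀ o₀ R₀) (h₁ : BddDens m μ₁ M₁ o₁ R₁) (hq : IsCoupling q μ₀ μ₁) :
    ∀ᵐ p ∂q, dist p.1 p.2 ≤ R₀ + dist o₀ o₁ + R₁ := by
  have a0 := cd_bdd_conc_ae h₀
  have a1 := cd_bdd_conc_ae h₁
  rw [← hq.1] at a0
  rw [← hq.2] at a1
  have b0 := ae_of_ae_map measurable_fst.aemeasurable a0
  have b1 := ae_of_ae_map measurable_snd.aemeasurable a1
  filter_upwards [b0, b1] with p h0 h1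
  calc dist p.1 p.2 ≤ dist p.1 o₀ + dist o₀ o₁ + dist o₁ p.2 := dist_triangle4 _ _ _ _
    _ ≤ R₀ + dist o₀ o₁ + R₁ := by rw [dist_comm o₁]; linarith

end

end Claimed.Agent.R210.CD.Basic
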