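/-
Row 210 (S0432), layer CD (architect helper269), file Spread:  existence of the plan (CD0), the spread bound (CD1), the Renyi inequality at time s (CD5).
   ρ_i = μ_i.rnDeriv m,  ν = interpolation π t,  ρ = ν.rnDeriv m,  P = cd_pos m ν = {ρ > 0}.
* `cd_exists_plan`:  unfold the frozen `CurvatureDimension`;  `cd_bdd_secondMoment`, `cd_ent_ac`.
* `cd_renyi_le_pos`: Hölder (`ENNReal.lintegral_mul_le_Lp_mul_Lq`, p = N/(N-1), q = N) for ρ^(1-1/N) * 1_P:     ∫ρ^(1-1/N) ≤ (∫ρ)^(1-1/N) (m P)^(1/N),   ∫ρ dm ≤ ν univ ≤ 1 (`Measure.lintegral_rnDeriv_le`).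
* `cd_lhs_ge`:       π-a.e.  d(γ0,γ1) ≤ D, ρ_0(γ0) ≤ M₀, ρ_1(γ1) ≤ M₁  (`cd_ent_ae_zero`, `cd_bdd_rnDeriv_le` + `cd_ent_ac`),  tau antitone (`co_tauCoeff_antitone`),   x ↦ x^(-1/N) antitone on [0,∞] (x^(-a) = (x^a)⁻¹: `ENNReal.rpow_neg`, `ENNReal.inv_le_inv`, `ENNReal.rpow_le_rpow`; -1/N = -(1/N));  `lintegral_mono_ae`, `lintegral_const`, π univ = 1.
* `cd_spread`:       c ≤ LHS ≤ renyiIntegral ≤ (m P)^(1/N);   raise to the power N (`ENNReal.rpow_le_rpow`, `ENNReal.rpow_mul`).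
* `cd_renyi`:        `lintegral_map_le` (or `lintegral_map` with measurability), drop the second term.
-/
import Claimed.Agent.R210.CD.Basic
import Claimed.Agent.R210.CO.Ifc

set_option autoImplicit false

open Claims.C0366 Claims.C0366.WeakHessian
open Set Filter MeasureTheory
open scoped ENNReal NNReal Topology
open Claimed.Agent.R210.Defs Claimed.Agent.R210.CD.Defs Claimed.Agent.R210.CD.Basic Claimed.Agent.R210.CO.Ifc
  Claimed.Agent.R210.CD.Ent.Base Claimed.Agent.R210.CD.Ent.Dens Claimed.Agent.R210.CD.Ent.Track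

namespace Claimed.Agent.R210.CD.Spread

noncomputable section

variable {X : Type*} [MetricSpace X] [MeasurableSpace X] [BorelSpace X]
variable {m μ ν μ₀ μ₁ : Measure X} {π : Measure (Curve X)} {M₀ M₁ : ℝ≥0} {o₀ o₁ : X} {R₀ R₁ K N : ℝ}

theorem cd_exists_plan' (hcd : CurvatureDimension m K N) (h₀ : BddDens m μ₀ M₀ o₀ R₀)
    (h₁ : BddDens m μ₁ M₁ o₁ R₁) : ∃ π, cd_Plan m K N μ₀ μ₁ π := by
  obtain ⟨π, h1, h2, h3, h4⟩ := hcd μ₀ μ₁ h₀.prob h₁.prob (cd_bdd_secondMoment h₀) (cd_bdd_secondMoment h₁)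
    (cd_ent_ac h₀) (cd_ent_ac h₁)
  exact ⟨π, h1, h2, h3, h4⟩

theorem cd_renyi_le_pos (hN : 1 < N) (hν : ν univ ≤ 1) :
    renyiIntegral m ν N ≤ (m (cd_pos m ν)) ^ (1 / N) := by
  have hN0 : 0 < N := by linarith
  have he : 0 < 1 - 1 / N := by
    rw [sub_pos, div_lt_one hN0]
    exact hN
  have hpq : (1 / (1 - 1 / N)).HolderConjugate N := by
    rw [Real.holderConjugate_iff]
    refine ⟨?_, ?_⟩
    · rw [lt_div_iff₀ he]
      have : 0 < 1 / N := by positivity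
      linarith
    · rw [one_div, inv_inv, ← one_div]
      ring
  have hm := Measure.measurable_rnDeriv ν m
  have h1 := ENNReal.lintegral_mul_le_Lp_mul_Lq m hpq (f := fun x => (ν.rnDeriv m x) ^ (1 - 1 / N))
    (g := (cd_pos m ν).indicator (fun _ => 1)) (hm.pow_const _).aemeasurable
    (measurable_const.indicator (cd_measurableSet_pos m ν)).aemeasurable
  have e1 : ∫⁻ a, ((fun x : X => (ν.rnDeriv m x) ^ (1 - 1 / N)) *
      (cd_pos m ν).indicator (fun _ : X => (1 : ℝ≥0∞))) a ∂m = renyiIntegral m ν N := by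
    unfold renyiIntegral
    refine lintegral_congr (fun x => ?_)
    simp only [Pi.mul_apply]
    by_cases hx : x ∈ cd_pos m ν
    · rw [indicator_of_mem hx, mul_one]
    · rw [indicator_of_notMem hx, mul_zero]
      have : ν.rnDeriv m x = 0 := by
        by_contra h0
        exact hx (pos_iff_ne_zero.2 h0)
      rw [this, ENNReal.zero_rpow_of_pos he]
  have e2 : ∫⁻ a, ((ν.rnDeriv m a) ^ (1 - 1 / N)) ^ (1 / (1 - 1 / N)) ∂m = ∫⁻ a, ν.rnDeriv m a ∂m := by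
    refine lintegral_congr (fun x => ?_)
    rw [← ENNReal.rpow_mul, mul_one_div_cancel he.ne', ENNReal.rpow_one]
  have e3 : ∫⁻ a, ((cd_pos m ν).indicator (fun _ => (1 : ℝ≥0∞)) a) ^ N ∂m = m (cd_pos m ν) := by
    rw [← lintegral_indicator_one (cd_measurableSet_pos m ν)]
    refine lintegral_congr (fun x => ?_)
    by_cases hx : x ∈ cd_pos m ν
    · simp [indicator_of_mem hx]
    · simp [indicator_of_notMem hx, ENNReal.zero_rpow_of_pos hN0]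
  rw [e1, e2, e3] at h1
  refine h1.trans ?_
  have h2 : (∫⁻ a, ν.rnDeriv m a ∂m) ^ (1 / (1 / (1 - 1 / N))) ≤ 1 := by
    refine ENNReal.rpow_le_one (Measure.lintegral_rnDeriv_le.trans hν) ?_
    rw [one_div_one_div]
    exact he.le
  calc (∫⁻ a, ν.rnDeriv m a ∂m) ^ (1 / (1 / (1 - 1 / N))) * m (cd_pos m ν) ^ (1 / N)
      ≤ 1 * m (cd_pos m ν) ^ (1 / N) := by gcongr
    _ = _ := one_mul _

/-- `x ↦ x^(-1/N)` is antitone on `[0,∞]`. -/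
theorem cd_rpow_anti (hN : 0 < N) {a b : ℝ≥0∞} (h : a ≤ b) : b ^ (-1 / N) ≤ a ^ (-1 / N) := by
  rw [neg_div, ENNReal.rpow_neg, ENNReal.rpow_neg]
  exact ENNReal.inv_le_inv.2 (ENNReal.rpow_le_rpow h (by positivity))

/-- `(a b^(-1/N))^N = a^N b⁻¹`. -/
theorem cd_mul_rpow (hN : 0 < N) (a b : ℝ≥0∞) : (a * b ^ (-1 / N)) ^ N = a ^ N * b⁻¹ := by
  rw [ENNReal.mul_rpow_of_nonneg _ _ hN.le, ← ENNReal.rpow_mul, div_mul_cancel₀ _ hN.ne', ENNReal.rpow_neg_one]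

theorem cd_lhs_ge (hS : Std m K N) (h₀ : BddDens m μ₀ M₀ o₀ R₀) (h₁ : BddDens m μ₁ M₁ o₁ R₁)
    (hπ : cd_Plan m K N μ₀ μ₁ π) {D : ℝ} (hD : ∀ᵐ γ ∂π, dist (γ timeZero) (γ timeOne) ≤ D)
    (t : Time) :
    tauCoeff K N (1 - (t : ℝ)) D * (M₀ : ℝ≥0∞) ^ (-1 / N) + tauCoeff K N (t : ℝ) D * (M₁ : ℝ≥0∞) ^ (-1 / N)
      ≤ ∫⁻ γ, (tauCoeff K N (1 - (t : ℝ)) (dist (γ timeZero) (γ timeOne)) *
            (μ₀.rnDeriv m (γ timeZero)) ^ (-1 / N) +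
          tauCoeff K N (t : ℝ) (dist (γ timeZero) (γ timeOne)) *
            (μ₁.rnDeriv m (γ timeOne)) ^ (-1 / N)) ∂π := by
  have := hπ.prob
  have := cd_ent_sigmaFinite hS.finite
  have hN0 : 0 < N := by linarith [hS.one_lt_N]
  have a0 : ∀ᵐ γ ∂π, μ₀.rnDeriv m (γ timeZero) ≤ M₀ :=
    cd_ent_ae_zero hπ.opt.1 ((cd_ent_ac h₀) (cd_bdd_rnDeriv_le h₀))
  have a1 : ∀ᵐ γ ∂π, μ₁.rnDeriv m (γ timeOne) ≤ M₁ :=
    cd_ent_ae_one hπ.opt.1 ((cd_ent_ac h₁) (cd_bdd_rnDeriv_le h₁))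
  calc tauCoeff K N (1 - (t : ℝ)) D * (M₀ : ℝ≥0∞) ^ (-1 / N) + tauCoeff K N (t : ℝ) D * (M₁ : ℝ≥0∞) ^ (-1 / N)
      = ∫⁻ _ : Curve X, (tauCoeff K N (1 - (t : ℝ)) D * (M₀ : ℝ≥0∞) ^ (-1 / N)
          + tauCoeff K N (t : ℝ) D * (M₁ : ℝ≥0∞) ^ (-1 / N)) ∂π := by simp
    _ ≤ _ := by
      refine lintegral_mono_ae ?_
      filter_upwards [hD, a0, a1] with γ hγ b0 b1
      refine add_le_add (mul_le_mul' ?_ (cd_rpow_anti hN0 b0)) (mul_le_mul' ?_ (cd_rpow_anti hN0 b1))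
      · exact co_tauCoeff_antitone hS.K_neg hS.one_lt_N (by linarith [t.2.2]) (by linarith [t.2.1])
          dist_nonneg hγ
      · exact co_tauCoeff_antitone hS.K_neg hS.one_lt_N t.2.1 t.2.2 dist_nonneg hγ

theorem cd_spread' (hS : Std m K N) (h₀ : BddDens m μ₀ M₀ o₀ R₀) (h₁ : BddDens m μ₁ M₁ o₁ R₁)
    (hπ : cd_Plan m K N μ₀ μ₁ π) {D : ℝ} (hD : ∀ᵐ γ ∂π, dist (γ timeZero) (γ timeOne) ≤ D)
    (t : Time) :
    (tauCoeff K N (1 - (t : ℝ)) D * (M₀ : ℝ≥0∞) ^ (-1 / N)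
      + tauCoeff K N (t : ℝ) D * (M₁ : ℝ≥0∞) ^ (-1 / N)) ^ N ≤ m (cd_pos m (interpolation π t)) := by
  have := hπ.prob
  have hN0 : 0 < N := by linarith [hS.one_lt_N]
  have hp : IsProbabilityMeasure (interpolation π t) := cd_ent_interp_prob t
  have h1 := (cd_lhs_ge hS h₀ h₁ hπ hD t).trans ((hπ.ineq N le_rfl t).trans
    (cd_renyi_le_pos hS.one_lt_N (by rw [hp.measure_univ])))
  have h2 := ENNReal.rpow_le_rpow h1 hN0.le
  rwa [← ENNReal.rpow_mul, one_div_mul_cancel hN0.ne', ENNReal.rpow_one] at h2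

/-- drop the second term;  (a b^(-1/N))^N = a^N b⁻¹  (`ENNReal.mul_rpow_of_nonneg`, `ENNReal.rpow_mul`, `ENNReal.rpow_neg_one`). -/
theorem cd_spread_left' (hS : Std m K N) (h₀ : BddDens m μ₀ M₀ o₀ R₀) (h₁ : BddDens m μ₁ M₁ o₁ R₁)
    (hπ : cd_Plan m K N μ₀ μ₁ π) {D : ℝ} (hD : ∀ᵐ γ ∂π, dist (γ timeZero) (γ timeOne) ≤ D)
    (t : Time) :
    tauCoeff K N (1 - (t : ℝ)) D ^ N * (M₀ : ℝ≥0∞)⁻¹ ≤ m (cd_pos m (interpolation π t)) := by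
  have hN0 : 0 < N := by linarith [hS.one_lt_N]
  refine le_trans ?_ (cd_spread' hS h₀ h₁ hπ hD t)
  rw [← cd_mul_rpow hN0]
  exact ENNReal.rpow_le_rpow le_self_add hN0.le

/-- `t = cd_ent_half`, `1 - 1/2 = 1/2`;   M_i^(-1/N) ≥ M^(-1/N) (`ENNReal.rpow_neg`, `ENNReal.inv_le_inv`, `ENNReal.rpow_le_rpow`);   tau M^(-1/N) + tau M^(-1/N) = (2 tau) M^(-1/N). -/
theorem cd_spread_mid' {M : ℝ≥0} (hS : Std m K N) (h₀ : BddDens m μ₀ M₀ o₀ R₀) (h₁ : BddDens m μ₁ M₁ o₁ R₁)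
    (hπ : cd_Plan m K N μ₀ μ₁ π) {D : ℝ} (hD : ∀ᵐ γ ∂π, dist (γ timeZero) (γ timeOne) ≤ D)
    (hM₀ : M₀ ≤ M) (hM₁ : M₁ ≤ M) :
    (2 * tauCoeff K N (1 / 2) D) ^ N * (M : ℝ≥0∞)⁻¹ ≤ m (cd_pos m (interpolation π cd_ent_half)) := by
  have hN0 : 0 < N := by linarith [hS.one_lt_N]
  refine le_trans ?_ (cd_spread' hS h₀ h₁ hπ hD cd_ent_half)
  rw [← cd_mul_rpow hN0]
  refine ENNReal.rpow_le_rpow ?_ hN0.le
  have e : (1 : ℝ) - ((cd_ent_half : Time) : ℝ) = 1 / 2 := by rw [cd_ent_half_coe]; norm_num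
  rw [e, cd_ent_half_coe, two_mul, add_mul]
  exact add_le_add (mul_le_mul' le_rfl (cd_rpow_anti hN0 (ENNReal.coe_le_coe.2 hM₀)))
    (mul_le_mul' le_rfl (cd_rpow_anti hN0 (ENNReal.coe_le_coe.2 hM₁)))

theorem cd_renyi' (hπ : cd_Plan m K N μ₀ μ₁ π) (s : Time) :
    ∫⁻ p, tauCoeff K N (1 - (s : ℝ)) (dist p.1 p.2) * (μ₀.rnDeriv m p.1) ^ (-1 / N) ∂(endpointCoupling π)
      ≤ renyiIntegral m (interpolation π s) N := by
  refine le_trans ?_ (hπ.ineq N le_rfl s)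
  unfold endpointCoupling
  refine (lintegral_map_le _ _).trans (lintegral_mono fun γ => ?_)
  exact le_self_add

end

end Claimed.Agent.R210.CD.Spread
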