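/-
Row 210 (S0432), layer CD (architect helper269), file BM:  Brunn-Minkowski inequality and its version for concentric balls.
* `cd_bm`:   μ_i = cd_unif m A_i  (`cd_unif_bddDens`, M_i = (m A_i)⁻¹, A_i inside some closed ball because bounded);   π from `cd_exists_plan'`;
      π-a.e. γ is a geodesic with γ0 ∈ A₀, γ1 ∈ A₁ (`cd_ent_ae_zero`, `cd_ent_ae_one`, `cd_unif_conc`), so d(γ0,γ1) ≤ D and γ t ∈ S (`cd_geo_left`, `cd_geo_right`, hypothesis hS');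
      hence ν Sᶜ = 0 for ν = interpolation π t (`Measure.map_apply`), `cd_pos_le`: m (cd_pos m ν) ≤ m S;   `cd_spread'`;     ((m A)⁻¹)^(-1/N) = (m A)^(1/N)  (`ENNReal.inv_rpow`, `ENNReal.rpow_neg`, `ENNReal.coe_toNNReal`).
* `cd_bm_ball`:  A₀ = closedBall x δ, A₁ = closedBall x R, S = closedBall x r, D = R + δ;    d(z,x) ≤ d(z,x0) + d(x0,x) ≤ t d(x0,x1) + δ ≤ t (R+δ) + δ ≤ r;    drop the first term;   (a b^(1/N))^N = a^N b (`ENNReal.mul_rpow_of_nonneg`, `ENNReal.rpow_mul`).     Positivity of the measure of balls: `FullSupport` on the (nonempty) ball x δ ⊆ closedBall x δ; finiteness: `FiniteOnBoundedSets`.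
-/
import Claimed.Agent.R210.CD.Spread

set_option autoImplicit false

open Claims.C0366 Claims.C0366.WeakHessian
open Set Filter MeasureTheory
open scoped ENNReal NNReal Topology
open Claimed.Agent.R210.Defs Claimed.Agent.R210.CD.Defs Claimed.Agent.R210.CD.Basic Claimed.Agent.R210.CO.Ifc
  Claimed.Agent.R210.CD.Ent.Base Claimed.Agent.R210.CD.Ent.Dens Claimed.Agent.R210.CD.Ent.Track Claimed.Agent.R210.CD.Spread

namespace Claimed.Agent.R210.CD.BM

noncomputable section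

variable {X : Type*} [MetricSpace X] [MeasurableSpace X] [BorelSpace X]
variable {m : Measure X} {K N : ℝ}

theorem cd_ball_pos (hS : Std m K N) (x : X) {r : ℝ} (hr : 0 < r) : m (Metric.closedBall x r) ≠ 0 := by
  have h1 : 0 < m (Metric.ball x r) := hS.full _ Metric.isOpen_ball ⟨x, Metric.mem_ball_self hr⟩
  exact (lt_of_lt_of_le h1 (measure_mono Metric.ball_subset_closedBall)).ne'

theorem cd_ball_ne_top (hS : Std m K N) (x : X) (r : ℝ) : m (Metric.closedBall x r) ≠ ∞ :=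
  (hS.finite _ Metric.isBounded_closedBall).ne

/-- `((a⁻¹).toNNReal : ℝ≥0∞) ^ (-1/N) = a ^ (1/N)` for `a ≠ 0`. -/
theorem cd_bm_inv_rpow {a : ℝ≥0∞} (h0 : a ≠ 0) (N : ℝ) :
    (((a⁻¹).toNNReal : ℝ≥0) : ℝ≥0∞) ^ (-1 / N) = a ^ (1 / N) := by
  rw [ENNReal.coe_toNNReal (ENNReal.inv_ne_top.2 h0), neg_div, ENNReal.rpow_neg, ENNReal.inv_rpow, inv_inv]

theorem cd_bm' (hS : Std m K N) {A₀ A₁ S : Set X} (hA₀ : MeasurableSet A₀) (hA₁ : MeasurableSet A₁)
    (hSm : MeasurableSet S) (hb₀ : Bornology.IsBounded A₀) (hb₁ : Bornology.IsBounded A₁)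
    (hp₀ : m A₀ ≠ 0) (hp₁ : m A₁ ≠ 0) {D : ℝ} (hD : ∀ x₀ ∈ A₀, ∀ x₁ ∈ A₁, dist x₀ x₁ ≤ D) (t : Time)
    (hS' : ∀ x₀ ∈ A₀, ∀ x₁ ∈ A₁, ∀ z, dist x₀ z = t * dist x₀ x₁ → dist z x₁ = (1 - t) * dist x₀ x₁ → z ∈ S) :
    (tauCoeff K N (1 - (t : ℝ)) D * (m A₀) ^ (1 / N) + tauCoeff K N (t : ℝ) D * (m A₁) ^ (1 / N)) ^ N
      ≤ m S := by
  have hf₀ : m A₀ ≠ ∞ := (hS.finite _ hb₀).ne
  have hf₁ : m A₁ ≠ ∞ := (hS.finite _ hb₁).ne
  have hne₀ : A₀.Nonempty := by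
    rcases A₀.eq_empty_or_nonempty with h | h
    · exact absurd (by rw [h, measure_empty]) hp₀
    · exact h
  obtain ⟨o, -⟩ := hne₀
  obtain ⟨R₀, hR₀⟩ := hb₀.subset_closedBall o
  obtain ⟨R₁, hR₁⟩ := hb₁.subset_closedBall o
  have h₀ := cd_unif_bddDens (m := m) hp₀ hf₀ hR₀
  have h₁ := cd_unif_bddDens (m := m) hp₁ hf₁ hR₁
  obtain ⟨π, hπ⟩ := cd_exists_plan' hS.cd h₀ h₁
  have hz : ∀ᵐ γ ∂π, γ timeZero ∈ A₀ := cd_ent_ae_zero hπ.opt.1 (cd_unif_conc hA₀)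
  have ho : ∀ᵐ γ ∂π, γ timeOne ∈ A₁ := cd_ent_ae_one hπ.opt.1 (cd_unif_conc hA₁)
  have hD' : ∀ᵐ γ ∂π, dist (γ timeZero) (γ timeOne) ≤ D := by
    filter_upwards [hz, ho] with γ h0 h1 using hD _ h0 _ h1
  have hin : ∀ᵐ γ ∂π, γ t ∈ S := by
    filter_upwards [hz, ho, hπ.geo] with γ h0 h1 hg
    exact hS' _ h0 _ h1 _ (cd_geo_left hg t) (cd_geo_right hg t)
  have hν : interpolation π t Sᶜ = 0 := by
    rw [interpolation, Measure.map_apply (cd_ent_measurable_eval t) hSm.compl]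
    exact hin
  have h := cd_spread' hS h₀ h₁ hπ hD' t
  rw [cd_bm_inv_rpow hp₀, cd_bm_inv_rpow hp₁] at h
  exact h.trans (cd_pos_le hSm hν)

theorem cd_bm_ball (hS : Std m K N) (x : X) {δ R r : ℝ} (hδ : 0 < δ) (hR : 0 < R) (t : Time)
    (hr : t * (R + δ) + δ ≤ r) :
    tauCoeff K N (t : ℝ) (R + δ) ^ N * m (Metric.closedBall x R) ≤ m (Metric.closedBall x r) := by
  have hN0 : (0 : ℝ) < N := lt_trans zero_lt_one hS.one_lt_N
  have hD : ∀ x₀ ∈ Metric.closedBall x δ, ∀ x₁ ∈ Metric.closedBall x R, dist x₀ x₁ ≤ R + δ := by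
    intro x₀ h0 x₁ h1
    have h0' : dist x₀ x ≤ δ := Metric.mem_closedBall.1 h0
    have h1' : dist x x₁ ≤ R := by rw [dist_comm]; exact Metric.mem_closedBall.1 h1
    linarith [dist_triangle x₀ x x₁]
  have h := cd_bm' hS (A₀ := Metric.closedBall x δ) (A₁ := Metric.closedBall x R)
    (S := Metric.closedBall x r) measurableSet_closedBall measurableSet_closedBall
    measurableSet_closedBall Metric.isBounded_closedBall Metric.isBounded_closedBall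
    (cd_ball_pos hS x hδ) (cd_ball_pos hS x hR) hD t (by
      intro x₀ h0 x₁ h1 z hz _
      have h0' : dist x₀ x ≤ δ := Metric.mem_closedBall.1 h0
      have ht0 : (0 : ℝ) ≤ t := t.2.1
      have h2 : dist z x₀ ≤ t * (R + δ) := by
        rw [dist_comm, hz]
        exact mul_le_mul_of_nonneg_left (hD _ h0 _ h1) ht0
      exact Metric.mem_closedBall.2 (by linarith [dist_triangle z x₀ x]))
  refine le_trans ?_ h
  calc tauCoeff K N (t : ℝ) (R + δ) ^ N * m (Metric.closedBall x R)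
      = (tauCoeff K N (t : ℝ) (R + δ) * (m (Metric.closedBall x R)) ^ (1 / N)) ^ N := by
        rw [ENNReal.mul_rpow_of_nonneg _ _ hN0.le, ← ENNReal.rpow_mul, one_div,
          inv_mul_cancel₀ hN0.ne', ENNReal.rpow_one]
    _ ≤ _ := ENNReal.rpow_le_rpow le_add_self hN0.le

end

end Claimed.Agent.R210.CD.BM
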