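/-
Row 210 (S0432), layer CD (architect helper269), file Dbl:  local doubling and exponential volume growth (CD2).      Everything from `cd_bm_ball`, `co_tauCoeff_antitone`, `co_tauCoeff_pos`, `co_tauCoeff_ne_top`, `co_tau_ge` (layer CO, sorry-free: `R210/CO/Ifc.lean`).
* `cd_ball_le`:      general comparison.  Given 0 < r ≤ R, put t = r/(4R) ∈ (0,1/4], δ = r/2:   t (R+δ) + δ ≤ r/4 + r/8 + r/2 ≤ r.     So  tau(t, R + r/2)^N m(B̄_R) ≤ m(B̄_r).
* `cd_doubling'`:    t = 1/4, δ = 2r/5, R = 2r:   t (2r+δ) + δ = r,   D = 12 r/5 ≤ 12 R₀/5;    C = (tau(1/4, 12R₀/5)^N)⁻¹  (`ENNReal.toNNReal`; finite because tau > 0; `ENNReal.le_inv_mul_iff`-type manipulation needs tau^N ≠ 0, ≠ ∞).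
* `cd_doubling_ball'`: m(ball x 2r) ≤ m(B̄ x 2r) ≤ C m(B̄ x r) ≤ C² m(B̄ x (r/2)) ≤ C² m(ball x r).
* `cd_unifLocDoubling'`: R₀ = 1, `Ioc_mem_nhdsGT`-type filter statement.
* `cd_growth'`:      for R ≥ 1: t = 1/(2R), δ = 1/4:  t (R+δ) + δ ≤ 1/2 + 1/8 + 1/4 ≤ 1;   `co_tau_eq`, `co_tau_ge`:  tau(t,θ) ≥ t e^{-θk}, k = co_k K N, so tau^N ≥ ofReal ((2R)^(-N) e^{-N k (R+1/4)});    (2R)^N ≤ e^{2NR}  (x ≤ e^x);    C = e^{N k/4}, c = 2N + N k.     For 0 ≤ R ≤ 1 monotonicity of m and C e^{cR} ≥ 1;  R < 0: empty ball.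
-/
import Claimed.Agent.R210.CD.BM

set_option autoImplicit false

open Claims.C0366 Claims.C0366.WeakHessian
open Set Filter MeasureTheory
open scoped ENNReal NNReal Topology
open Claimed.Agent.R210.Defs Claimed.Agent.R210.CD.Defs Claimed.Agent.R210.CD.Basic Claimed.Agent.R210.CO.Ifc
  Claimed.Agent.R210.CD.Ent.Base Claimed.Agent.R210.CD.Ent.Dens Claimed.Agent.R210.CD.Ent.Track Claimed.Agent.R210.CD.Spread Claimed.Agent.R210.CD.BM

namespace Claimed.Agent.R210.CD.Dbl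

noncomputable section

variable {X : Type*} [MetricSpace X] [MeasurableSpace X] [BorelSpace X]
variable {m : Measure X} {K N : ℝ}

/-- `a x ≤ y`, `a ≠ 0, ∞`  ⟹  `x ≤ a⁻¹ y`, with the constant in `ℝ≥0`. -/
theorem cd_dbl_div {a x y : ℝ≥0∞} (h0 : a ≠ 0) (ht : a ≠ ∞) (h : a * x ≤ y) :
    x ≤ ((a⁻¹).toNNReal : ℝ≥0) * y := by
  rw [ENNReal.coe_toNNReal (ENNReal.inv_ne_top.2 h0)]
  calc x = a⁻¹ * (a * x) := by rw [← mul_assoc, ENNReal.inv_mul_cancel h0 ht, one_mul]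
    _ ≤ a⁻¹ * y := by gcongr

theorem cd_dbl_tau_ne_zero (hS : Std m K N) {t θ : ℝ} (ht0 : 0 < t) (ht1 : t ≤ 1) (hθ : 0 ≤ θ) :
    tauCoeff K N t θ ^ N ≠ 0 := by
  have hN : 0 < N := by linarith [hS.one_lt_N]
  have h1 := co_tauCoeff_pos hS.K_neg hS.one_lt_N ht0 ht1 hθ
  exact (ENNReal.rpow_pos h1 (co_tauCoeff_ne_top hS.K_neg hS.one_lt_N ht0.le ht1 θ)).ne'

theorem cd_dbl_tau_ne_top (hS : Std m K N) {t : ℝ} (ht0 : 0 ≤ t) (ht1 : t ≤ 1) (θ : ℝ) :
    tauCoeff K N t θ ^ N ≠ ∞ := by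
  have hN : 0 ≤ N := by linarith [hS.one_lt_N]
  exact ENNReal.rpow_ne_top_of_nonneg hN (co_tauCoeff_ne_top hS.K_neg hS.one_lt_N ht0 ht1 θ)

/-- comparison of concentric balls, with a constant depending only on `K, N, r, R`. -/
theorem cd_ball_le' (hS : Std m K N) {r R : ℝ} (hr : 0 < r) (hR : r ≤ R) :
    ∃ C : ℝ≥0, ∀ x : X, m (Metric.closedBall x R) ≤ C * m (Metric.closedBall x r) := by
  have hR0 : 0 < R := lt_of_lt_of_le hr hR
  have ht0 : 0 < r / (4 * R) := by positivity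
  have ht1 : r / (4 * R) ≤ 1 := by
    rw [div_le_one (by positivity)]
    linarith
  have hθ : 0 ≤ R + r / 2 := by positivity
  refine ⟨((tauCoeff K N (r / (4 * R)) (R + r / 2) ^ N)⁻¹).toNNReal, fun x => ?_⟩
  refine cd_dbl_div (cd_dbl_tau_ne_zero hS ht0 ht1 hθ) (cd_dbl_tau_ne_top hS ht0.le ht1 _) ?_
  have hle : r / (4 * R) * (R + r / 2) + r / 2 ≤ r := by
    have e1 : r / (4 * R) * R = r / 4 := by field_simp
    have e2 : r / (4 * R) * (r / 2) ≤ 1 / 4 * (r / 2) := by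
      have : r / (4 * R) ≤ 1 / 4 := by
        rw [div_le_div_iff₀ (by positivity) (by norm_num)]
        linarith
      exact mul_le_mul_of_nonneg_right this (by positivity)
    rw [mul_add, e1]
    linarith
  exact cd_bm_ball hS x (δ := r / 2) (R := R) (r := r) (by positivity) hR0
    (⟨r / (4 * R), ht0.le, ht1⟩ : Time) hle

theorem cd_doubling' (hS : Std m K N) (R₀ : ℝ) :
    ∃ C : ℝ≥0, ∀ x : X, ∀ r : ℝ, 0 < r → r ≤ R₀ →
      m (Metric.closedBall x (2 * r)) ≤ C * m (Metric.closedBall x r) := by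
  refine ⟨((tauCoeff K N (1 / 4) (12 * R₀ / 5) ^ N)⁻¹).toNNReal, fun x r hr hrR => ?_⟩
  have hR0 : 0 < R₀ := lt_of_lt_of_le hr hrR
  have ht0 : (0 : ℝ) < 1 / 4 := by norm_num
  have ht1 : (1 / 4 : ℝ) ≤ 1 := by norm_num
  have hN : 0 ≤ N := by linarith [hS.one_lt_N]
  refine cd_dbl_div (cd_dbl_tau_ne_zero hS ht0 ht1 (by positivity)) (cd_dbl_tau_ne_top hS ht0.le ht1 _) ?_
  have h1 : tauCoeff K N (1 / 4) (12 * R₀ / 5) ≤ tauCoeff K N (1 / 4) (2 * r + 2 * r / 5) :=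
    co_tauCoeff_antitone hS.K_neg hS.one_lt_N ht0.le ht1 (by positivity) (by linarith)
  have h2 := cd_bm_ball hS x (δ := 2 * r / 5) (R := 2 * r) (r := r) (by positivity) (by positivity)
    (⟨1 / 4, ht0.le, ht1⟩ : Time) (by show (1 / 4 : ℝ) * (2 * r + 2 * r / 5) + 2 * r / 5 ≤ r; linarith)
  refine le_trans ?_ h2
  gcongr

theorem cd_doubling_ball' (hS : Std m K N) (R₀ : ℝ) :
    ∃ C : ℝ≥0, ∀ x : X, ∀ r : ℝ, 0 < r → r ≤ R₀ →
      m (Metric.ball x (2 * r)) ≤ C * m (Metric.ball x r) := by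
  obtain ⟨C, hC⟩ := cd_doubling' hS R₀
  refine ⟨C * C, fun x r hr hrR => ?_⟩
  have h1 : m (Metric.ball x (2 * r)) ≤ m (Metric.closedBall x (2 * r)) :=
    measure_mono Metric.ball_subset_closedBall
  have h2 := hC x r hr hrR
  have h3 := hC x (r / 2) (by positivity) (by linarith)
  have h4 : m (Metric.closedBall x (r / 2)) ≤ m (Metric.ball x r) :=
    measure_mono (Metric.closedBall_subset_ball (by linarith))
  have e : 2 * (r / 2) = r := by ring
  rw [e] at h3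
  calc m (Metric.ball x (2 * r)) ≤ m (Metric.closedBall x (2 * r)) := h1
    _ ≤ C * m (Metric.closedBall x r) := h2
    _ ≤ C * (C * m (Metric.closedBall x (r / 2))) := by gcongr
    _ ≤ C * (C * m (Metric.ball x r)) := by gcongr
    _ = ((C * C : ℝ≥0) : ℝ≥0∞) * m (Metric.ball x r) := by
        rw [ENNReal.coe_mul, mul_assoc]

theorem cd_unifLocDoubling' (hS : Std m K N) : IsUnifLocDoublingMeasure m := by
  obtain ⟨C, hC⟩ := cd_doubling' hS 1
  refine ⟨⟨C, ?_⟩⟩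
  have : Ioc (0:ℝ) 1 ∈ 𝓝[>] (0:ℝ) := Ioc_mem_nhdsGT (by norm_num)
  filter_upwards [this] with ε hε x
  exact hC x ε hε.1 hε.2

theorem cd_growth' (hS : Std m K N) : ∃ C c : ℝ, 0 < C ∧ 0 < c ∧ ∀ x : X, ∀ R : ℝ,
    m (Metric.closedBall x R) ≤ ENNReal.ofReal (C * Real.exp (c * R)) * m (Metric.closedBall x 1) := by
  have hN1 := hS.one_lt_N
  have hN0 : (0 : ℝ) < N := lt_trans zero_lt_one hN1
  have hk : 0 < co_k K N := co_k_pos hS.K_neg hN1
  refine ⟨Real.exp (N * co_k K N / 4), 2 * N + N * co_k K N, Real.exp_pos _, by positivity, ?_⟩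
  intro x R
  rcases lt_or_ge R 0 with hR0 | hR0
  · rw [Metric.closedBall_eq_empty.2 hR0, measure_empty]; exact bot_le
  rcases le_or_gt R 1 with hR1 | hR1
  · have h1 : (1 : ℝ) ≤ Real.exp (N * co_k K N / 4) * Real.exp ((2 * N + N * co_k K N) * R) := by
      rw [← Real.exp_add]
      exact Real.one_le_exp (by positivity)
    calc m (Metric.closedBall x R) ≤ m (Metric.closedBall x 1) :=
          measure_mono (Metric.closedBall_subset_closedBall hR1)
      _ = 1 * m (Metric.closedBall x 1) := (one_mul _).symm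
      _ ≤ _ := by
          gcongr
          rw [← ENNReal.ofReal_one]
          exact ENNReal.ofReal_le_ofReal h1
  · have hRpos : 0 < R := by linarith
    have ht0 : (0 : ℝ) < 1 / (2 * R) := by positivity
    have ht1 : 1 / (2 * R) ≤ 1 := by
      rw [div_le_one (by positivity)]; linarith
    let t : Time := ⟨1 / (2 * R), ht0.le, ht1⟩
    have htc : ((t : Time) : ℝ) = 1 / (2 * R) := rfl
    have hr : (t : ℝ) * (R + 1 / 4) + 1 / 4 ≤ 1 := by
      rw [htc]
      have e : 1 / (2 * R) * (R + 1 / 4) = 1 / 2 + 1 / (8 * R) := by field_simp; ring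
      have e2 : 1 / (8 * R) ≤ 1 / 8 := by
        apply div_le_div_of_nonneg_left (by norm_num) (by norm_num); linarith
      rw [e]; linarith
    have h := cd_bm_ball hS x (δ := 1 / 4) (R := R) (r := 1) (by norm_num) hRpos t hr
    set θ : ℝ := R + 1 / 4 with hθ
    have hθ0 : 0 ≤ θ := by positivity
    set a : ℝ := 1 / (2 * R) * Real.exp (-(θ * co_k K N)) with ha
    have ha0 : 0 < a := by positivity
    have hge : a ≤ co_tau K N (1 / (2 * R)) θ := by
      refine le_trans ?_ (co_tau_ge hS.K_neg hN1 ht0.le ht1 hθ0)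
      rw [ha]
      apply mul_le_mul_of_nonneg_left _ ht0.le
      apply Real.exp_le_exp.2
      have : (1 - 1 / (2 * R)) * (θ * co_k K N) ≤ 1 * (θ * co_k K N) :=
        mul_le_mul_of_nonneg_right (by linarith) (by positivity)
      linarith
    have htau : ENNReal.ofReal (a ^ N) ≤ tauCoeff K N (t : ℝ) θ ^ N := by
      rw [htc, co_tau_eq hS.K_neg hN1 ht0.le ht1, ← ENNReal.ofReal_rpow_of_pos ha0]
      exact ENNReal.rpow_le_rpow (ENNReal.ofReal_le_ofReal hge) hN0.le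
    have haN : 0 < a ^ N := Real.rpow_pos_of_pos ha0 N
    have h2 : ENNReal.ofReal (a ^ N) * m (Metric.closedBall x R) ≤ m (Metric.closedBall x 1) :=
      le_trans (by gcongr) h
    have h3 : m (Metric.closedBall x R)
        ≤ ENNReal.ofReal ((a ^ N)⁻¹) * m (Metric.closedBall x 1) := by
      calc m (Metric.closedBall x R)
          = ENNReal.ofReal ((a ^ N)⁻¹) * (ENNReal.ofReal (a ^ N) * m (Metric.closedBall x R)) := by
            rw [← mul_assoc, ← ENNReal.ofReal_mul (inv_nonneg.2 haN.le), inv_mul_cancel₀ haN.ne',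
              ENNReal.ofReal_one, one_mul]
        _ ≤ _ := by gcongr
    refine h3.trans ?_
    gcongr
    -- `(a^N)⁻¹ = (2R)^N e^{N θ k}`
    have e1 : (a ^ N)⁻¹ = (2 * R) ^ N * Real.exp (N * (θ * co_k K N)) := by
      rw [ha, Real.mul_rpow ht0.le (Real.exp_pos _).le, mul_inv, one_div,
        Real.inv_rpow (by positivity), inv_inv, ← Real.exp_mul, ← Real.exp_neg]
      congr 2
      ring
    have e2 : (2 * R) ^ N ≤ Real.exp (2 * N * R) := by
      have : 2 * R ≤ Real.exp (2 * R) := by linarith [Real.add_one_le_exp (2 * R)]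
      calc (2 * R) ^ N ≤ (Real.exp (2 * R)) ^ N := Real.rpow_le_rpow (by positivity) this hN0.le
        _ = Real.exp (2 * N * R) := by rw [← Real.exp_mul]; congr 1; ring
    rw [e1]
    calc (2 * R) ^ N * Real.exp (N * (θ * co_k K N))
        ≤ Real.exp (2 * N * R) * Real.exp (N * (θ * co_k K N)) := by gcongr
      _ = Real.exp (N * co_k K N / 4) * Real.exp ((2 * N + N * co_k K N) * R) := by
          rw [← Real.exp_add, ← Real.exp_add, hθ]; congr 1; ring

end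

end Claimed.Agent.R210.CD.Dbl
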