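/-
Row 210 (S0432), layer CD (architect helper269), file Exp:  integrability of  e^{-b d(·,o)}  for large b  (consequence of the volume growth `cd_growth'`; used by layer HF through `Defs2.GoodExp`).
   e^{-b d(x,o)} ≤ Σ_n e^{-b n} 1_{B̄(o,n+1)}(x)  (term n = ⌊d(x,o)⌋),     m B̄(o,n+1) ≤ C e^{c(n+1)} m B̄(o,1),     Σ_n e^{-(b-c) n} < ∞.
-/
import Claimed.Agent.R210.CD.Dbl
import Claimed.Agent.R210.Defs2

set_option autoImplicit false

open Claims.C0366 Claims.C0366.WeakHessian
open Set Filter MeasureTheory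
open scoped ENNReal NNReal Topology
open Claimed.Agent.R210.Defs Claimed.Agent.R210.CD.Defs Claimed.Agent.R210.CD.BM Claimed.Agent.R210.CD.Dbl

namespace Claimed.Agent.R210.CD.Exp

noncomputable section

variable {X : Type*} [MetricSpace X] [MeasurableSpace X] [BorelSpace X]
variable {m : Measure X} {K N : ℝ}

theorem cd_exp_pointwise {b : ℝ} (hb : 0 ≤ b) (o x : X) :
    ENNReal.ofReal (Real.exp (-b * dist x o))
      ≤ ∑' n : ℕ, ENNReal.ofReal (Real.exp (-b * n)) *
          (Metric.closedBall o ((n : ℝ) + 1)).indicator (fun _ => (1 : ℝ≥0∞)) x := by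
  refine le_trans ?_ (ENNReal.le_tsum ⌊dist x o⌋₊)
  have h1 : ((⌊dist x o⌋₊ : ℕ) : ℝ) ≤ dist x o := Nat.floor_le dist_nonneg
  have h2 : dist x o < (⌊dist x o⌋₊ : ℝ) + 1 := Nat.lt_floor_add_one _
  rw [indicator_of_mem (Metric.mem_closedBall.2 h2.le), mul_one]
  refine ENNReal.ofReal_le_ofReal (Real.exp_le_exp.2 ?_)
  nlinarith

theorem cd_exp_lintegral (hS : Std m K N) : ∃ c₀ : ℝ, 0 < c₀ ∧ ∀ b : ℝ, c₀ < b → ∀ o : X,
    ∫⁻ x, ENNReal.ofReal (Real.exp (-b * dist x o)) ∂m < ∞ := by
  obtain ⟨C, c, hC, hc, H⟩ := cd_growth' hS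
  refine ⟨c, hc, fun b hb o => ?_⟩
  have hb0 : 0 ≤ b := by linarith
  set r : ℝ := Real.exp (-(b - c)) with hr
  have hr0 : 0 ≤ r := (Real.exp_pos _).le
  have hr1 : r < 1 := by
    rw [hr, Real.exp_lt_one_iff]
    linarith
  have hsum : Summable (fun n : ℕ => C * Real.exp c * r ^ n) :=
    (summable_geometric_of_lt_one hr0 hr1).mul_left _
  calc ∫⁻ x, ENNReal.ofReal (Real.exp (-b * dist x o)) ∂m
      ≤ ∫⁻ x, ∑' n : ℕ, ENNReal.ofReal (Real.exp (-b * n)) *
          (Metric.closedBall o ((n : ℝ) + 1)).indicator (fun _ => (1 : ℝ≥0∞)) x ∂m :=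
        lintegral_mono (cd_exp_pointwise hb0 o)
    _ = ∑' n : ℕ, ENNReal.ofReal (Real.exp (-b * n)) * m (Metric.closedBall o ((n : ℝ) + 1)) := by
        rw [lintegral_tsum]
        · refine tsum_congr fun n => ?_
          rw [lintegral_const_mul _ (measurable_const.indicator Metric.isClosed_closedBall.measurableSet),
            lintegral_indicator_const Metric.isClosed_closedBall.measurableSet, one_mul]
        · intro n
          exact (measurable_const.mul
            (measurable_const.indicator Metric.isClosed_closedBall.measurableSet)).aemeasurable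
    _ ≤ ∑' n : ℕ, ENNReal.ofReal (C * Real.exp c * r ^ n) * m (Metric.closedBall o 1) := by
        refine ENNReal.tsum_le_tsum fun n => ?_
        calc ENNReal.ofReal (Real.exp (-b * n)) * m (Metric.closedBall o ((n : ℝ) + 1))
            ≤ ENNReal.ofReal (Real.exp (-b * n)) *
                (ENNReal.ofReal (C * Real.exp (c * ((n : ℝ) + 1))) * m (Metric.closedBall o 1)) := by
              gcongr
              exact H o _
          _ = ENNReal.ofReal (C * Real.exp c * r ^ n) * m (Metric.closedBall o 1) := by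
              rw [← mul_assoc, ← ENNReal.ofReal_mul (Real.exp_pos _).le]
              congr 2
              rw [hr, ← Real.exp_nat_mul]
              have e : Real.exp (-b * n) * (C * Real.exp (c * ((n : ℝ) + 1)))
                  = C * (Real.exp (-b * n) * Real.exp (c * ((n : ℝ) + 1))) := by ring
              rw [e, ← Real.exp_add, mul_assoc, ← Real.exp_add]
              congr 2
              ring
    _ = (∑' n : ℕ, ENNReal.ofReal (C * Real.exp c * r ^ n)) * m (Metric.closedBall o 1) :=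
        ENNReal.tsum_mul_right
    _ < ∞ := by
        refine ENNReal.mul_lt_top ?_ (cd_ball_ne_top hS o 1).lt_top
        rw [← ENNReal.ofReal_tsum_of_nonneg (fun n => by positivity) hsum]
        exact ENNReal.ofReal_lt_top

theorem cd_exp_integrable' (hS : Std m K N) : ∃ c₀ : ℝ, 0 < c₀ ∧ ∀ b : ℝ, c₀ < b → ∀ o : X,
    Integrable (fun x => Real.exp (-b * dist x o)) m := by
  obtain ⟨c₀, h0, H⟩ := cd_exp_lintegral hS
  refine ⟨c₀, h0, fun b hb o => ?_⟩
  have hc : Continuous (fun x : X => Real.exp (-b * dist x o)) := by fun_prop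
  refine ⟨hc.aestronglyMeasurable, ?_⟩
  rw [hasFiniteIntegral_iff_ofReal (Eventually.of_forall fun x => (Real.exp_pos _).le)]
  exact H b hb o

theorem cd_goodExp' (hS : Std m K N) : ∃ a₀ : ℝ, 0 < a₀ ∧ ∀ a : ℝ, a₀ < a → ∀ o : X,
    Claimed.Agent.R210.Defs2.GoodExp m o a := by
  obtain ⟨c₀, h0, H⟩ := cd_exp_integrable' hS
  refine ⟨4 * c₀, by positivity, fun a ha o => ⟨by linarith, ?_⟩⟩
  exact H (a / 4) (by linarith) o

end

end Claimed.Agent.R210.CD.Exp
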