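/-
Row 210 (S0432), layer CD (architect helper269), file Inter:  the interpolations of a geodesic plan with optimal end point coupling are intermediate points.
   W² = W2sq μ₀ μ₁ = QuadraticTransportCost (endpointCoupling π) = ∫⁻ edist(γ0,γ1)² dπ       (`Ent/Cost.lean`: cd_ent_* ; or directly `le_antisymm (iInf₂_le _ h.1) (le_iInf₂ h.2)`, `lintegral_map`;  p ↦ edist p.1 p.2 is measurable on X × X because X is second countable: `have := UniformSpace.secondCountable_of_separable X`, `measurable_edist`).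
* `cd_W2sq_left_le`:   q' = map (e_0, e_t) π is a coupling of (μ₀, ν), ν = interpolation π t (`Measure.map_map`), with cost ∫⁻ edist(γ0,γt)² dπ = ∫⁻ ofReal(t²) edist(γ0,γ1)² dπ  (π-a.e. geodesic, `cd_geo_left`, `edist_dist`, `ENNReal.ofReal_mul`, `lintegral_const_mul`);   W2sq μ₀ ν ≤ cost q' (`iInf₂_le`).
* `cd_W2sq_right_le`:  the same with (e_t, e_1), `cd_geo_right`.
* `cd_need_triangle`:  = OT2 (layer OT).   Replace by the export of `R210/OT/Ifc.lean` when it is on main.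
* `cd_isInter'`:       A = sqrt(W2sq μ₀ ν) ≤ t W, B = sqrt(W2sq ν μ₁) ≤ (1-t) W, W ≤ A + B, W < ∞ (bounded supports: `cd_coupling_dist_le`)  ⟹  A = t W, B = (1-t) W.
-/
import Claimed.Agent.R210.CD.Basic
import Claimed.Agent.R210.OT.Ifc

set_option autoImplicit false

open Claims.C0366 Claims.C0366.WeakHessian
open Set Filter MeasureTheory
open scoped ENNReal NNReal Topology
open Claimed.Agent.R210.Defs Claimed.Agent.R210.CD.Defs Claimed.Agent.R210.CD.Basic
  Claimed.Agent.R210.CD.Ent.Base Claimed.Agent.R210.CD.Ent.Dens Claimed.Agent.R210.CD.Ent.Track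

namespace Claimed.Agent.R210.CD.Inter

noncomputable section

variable {X : Type*} [MetricSpace X] [MeasurableSpace X] [BorelSpace X]
variable {m μ₀ μ₁ : Measure X} {π : Measure (Curve X)} {M₀ M₁ : ℝ≥0} {o₀ o₁ : X} {R₀ R₁ K N : ℝ}

theorem cd_W2sq_left_le [TopologicalSpace.SeparableSpace X] (hgeo : ∀ᵐ γ ∂π, IsGeodesic γ) (hopt : IsOptimalCoupling (endpointCoupling π) μ₀ μ₁)
    (t : Time) : W2sq μ₀ (interpolation π t) ≤ ENNReal.ofReal ((t : ℝ) ^ 2) * W2sq μ₀ μ₁ := by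
  have := UniformSpace.secondCountable_of_separable X
  have hW : W2sq μ₀ μ₁ = QuadraticTransportCost (endpointCoupling π) :=
    le_antisymm (iInf₂_le (endpointCoupling π) hopt.1) (le_iInf₂ hopt.2)
  have hme : Measurable (fun p : X × X => (edist p.1 p.2) ^ 2) := measurable_edist.pow_const 2
  have hpair : Measurable (fun γ : Curve X => (γ timeZero, γ t)) :=
    (cd_ent_measurable_eval timeZero).prodMk (cd_ent_measurable_eval t)
  have hc : IsCoupling (Measure.map (fun γ : Curve X => (γ timeZero, γ t)) π) μ₀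
      (interpolation π t) := by
    constructor
    · rw [Measure.map_map measurable_fst hpair]
      exact cd_ent_map_zero hopt.1
    · rw [Measure.map_map measurable_snd hpair]
      rfl
  calc W2sq μ₀ (interpolation π t)
      ≤ QuadraticTransportCost (Measure.map (fun γ : Curve X => (γ timeZero, γ t)) π) :=
        iInf₂_le (Measure.map (fun γ : Curve X => (γ timeZero, γ t)) π) hc
    _ = ∫⁻ γ, (edist (γ timeZero) (γ t)) ^ 2 ∂π := by
        unfold QuadraticTransportCost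
        rw [lintegral_map hme hpair]
    _ = ∫⁻ γ, ENNReal.ofReal ((t : ℝ) ^ 2) * (edist (γ timeZero) (γ timeOne)) ^ 2 ∂π := by
        refine lintegral_congr_ae ?_
        filter_upwards [hgeo] with γ hγ
        rw [edist_dist, edist_dist, cd_geo_left hγ t, ENNReal.ofReal_mul t.2.1, mul_pow,
          ← ENNReal.ofReal_pow t.2.1]
    _ = ENNReal.ofReal ((t : ℝ) ^ 2) * ∫⁻ γ, (edist (γ timeZero) (γ timeOne)) ^ 2 ∂π :=
        lintegral_const_mul _ (hme.comp cd_ent_measurable_pair)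
    _ = ENNReal.ofReal ((t : ℝ) ^ 2) * W2sq μ₀ μ₁ := by
        rw [hW]
        unfold QuadraticTransportCost endpointCoupling
        rw [lintegral_map hme cd_ent_measurable_pair]

theorem cd_W2sq_right_le [TopologicalSpace.SeparableSpace X] (hgeo : ∀ᵐ γ ∂π, IsGeodesic γ) (hopt : IsOptimalCoupling (endpointCoupling π) μ₀ μ₁)
    (t : Time) : W2sq (interpolation π t) μ₁ ≤ ENNReal.ofReal ((1 - (t : ℝ)) ^ 2) * W2sq μ₀ μ₁ := by
  have := UniformSpace.secondCountable_of_separable X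
  have hW : W2sq μ₀ μ₁ = QuadraticTransportCost (endpointCoupling π) :=
    le_antisymm (iInf₂_le (endpointCoupling π) hopt.1) (le_iInf₂ hopt.2)
  have hme : Measurable (fun p : X × X => (edist p.1 p.2) ^ 2) := measurable_edist.pow_const 2
  have hpair : Measurable (fun γ : Curve X => (γ t, γ timeOne)) :=
    (cd_ent_measurable_eval t).prodMk (cd_ent_measurable_eval timeOne)
  have h1t : (0 : ℝ) ≤ 1 - (t : ℝ) := by linarith [t.2.2]
  have hc : IsCoupling (Measure.map (fun γ : Curve X => (γ t, γ timeOne)) π)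
      (interpolation π t) μ₁ := by
    constructor
    · rw [Measure.map_map measurable_fst hpair]
      rfl
    · rw [Measure.map_map measurable_snd hpair]
      exact cd_ent_map_one hopt.1
  calc W2sq (interpolation π t) μ₁
      ≤ QuadraticTransportCost (Measure.map (fun γ : Curve X => (γ t, γ timeOne)) π) :=
        iInf₂_le (Measure.map (fun γ : Curve X => (γ t, γ timeOne)) π) hc
    _ = ∫⁻ γ, (edist (γ t) (γ timeOne)) ^ 2 ∂π := by
        unfold QuadraticTransportCost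
        rw [lintegral_map hme hpair]
    _ = ∫⁻ γ, ENNReal.ofReal ((1 - (t : ℝ)) ^ 2) * (edist (γ timeZero) (γ timeOne)) ^ 2 ∂π := by
        refine lintegral_congr_ae ?_
        filter_upwards [hgeo] with γ hγ
        rw [edist_dist, edist_dist, cd_geo_right hγ t, ENNReal.ofReal_mul h1t, mul_pow,
          ← ENNReal.ofReal_pow h1t]
    _ = ENNReal.ofReal ((1 - (t : ℝ)) ^ 2) * ∫⁻ γ, (edist (γ timeZero) (γ timeOne)) ^ 2 ∂π :=
        lintegral_const_mul _ (hme.comp cd_ent_measurable_pair)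
    _ = ENNReal.ofReal ((1 - (t : ℝ)) ^ 2) * W2sq μ₀ μ₁ := by
        rw [hW]
        unfold QuadraticTransportCost endpointCoupling
        rw [lintegral_map hme cd_ent_measurable_pair]

theorem cd_W2sq_ne_top (h₀ : BddDens m μ₀ M₀ o₀ R₀) (h₁ : BddDens m μ₁ M₁ o₁ R₁)
    {q : Measure (X × X)} (hq : IsCoupling q μ₀ μ₁) : W2sq μ₀ μ₁ ≠ ∞ := by
  have := h₀.prob
  have hq1 : q univ = 1 := by
    have h := hq.1
    have h2 : (Measure.map Prod.fst q) univ = q univ := by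
      rw [Measure.map_apply measurable_fst MeasurableSet.univ, preimage_univ]
    rw [← h2, h]
    exact measure_univ
  refine ne_top_of_le_ne_top ?_ (iInf₂_le q hq)
  refine ne_top_of_le_ne_top ?_ (lintegral_mono_ae (g := fun _ => (ENNReal.ofReal (R₀ + dist o₀ o₁ + R₁)) ^ 2) ?_)
  · rw [lintegral_const, hq1, mul_one]
    exact ENNReal.pow_ne_top ENNReal.ofReal_ne_top
  · filter_upwards [cd_coupling_dist_le h₀ h₁ hq] with p hp
    rw [edist_dist]
    gcongr

/-- triangle inequality for `W₂` (OT2). -/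
theorem cd_need_triangle [CompleteSpace X] [TopologicalSpace.SeparableSpace X] {μ ν σ : Measure X}
    [IsProbabilityMeasure μ] [IsProbabilityMeasure ν] [IsProbabilityMeasure σ] :
    (W2sq μ σ) ^ (1 / 2 : ℝ) ≤ (W2sq μ ν) ^ (1 / 2 : ℝ) + (W2sq ν σ) ^ (1 / 2 : ℝ) :=
  Claimed.Agent.R210.OT.Glue.ot_triangle μ ν σ

theorem cd_inter_arith_real {A B W t : ℝ} (ht0 : 0 ≤ t) (ht1 : t ≤ 1) (hA : 0 ≤ A) (hB : 0 ≤ B)
    (hW : 0 ≤ W) (ha : A ≤ t ^ 2 * W) (hb : B ≤ (1 - t) ^ 2 * W)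
    (htri : W ^ (1 / 2 : ℝ) ≤ A ^ (1 / 2 : ℝ) + B ^ (1 / 2 : ℝ)) :
    A = t ^ 2 * W ∧ B = (1 - t) ^ 2 * W := by
  rw [← Real.sqrt_eq_rpow, ← Real.sqrt_eq_rpow, ← Real.sqrt_eq_rpow] at htri
  have h1t : 0 ≤ 1 - t := by linarith
  have hx : Real.sqrt A ≤ t * Real.sqrt W := by
    have := Real.sqrt_le_sqrt ha
    rwa [Real.sqrt_mul (sq_nonneg t), Real.sqrt_sq ht0] at this
  have hy : Real.sqrt B ≤ (1 - t) * Real.sqrt W := by
    have := Real.sqrt_le_sqrt hb
    rwa [Real.sqrt_mul (sq_nonneg (1 - t)), Real.sqrt_sq h1t] at this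
  have hx' : Real.sqrt A = t * Real.sqrt W := by linarith
  have hy' : Real.sqrt B = (1 - t) * Real.sqrt W := by linarith
  constructor
  · rw [← Real.sq_sqrt hA, hx', mul_pow, Real.sq_sqrt hW]
  · rw [← Real.sq_sqrt hB, hy', mul_pow, Real.sq_sqrt hW]

/-- pure `ℝ≥0∞` arithmetic. -/
theorem cd_inter_arith {a b w : ℝ≥0∞} {t : ℝ} (ht0 : 0 ≤ t) (ht1 : t ≤ 1) (hw : w ≠ ∞)
    (ha : a ≤ ENNReal.ofReal (t ^ 2) * w) (hb : b ≤ ENNReal.ofReal ((1 - t) ^ 2) * w)
    (htri : w ^ (1 / 2 : ℝ) ≤ a ^ (1 / 2 : ℝ) + b ^ (1 / 2 : ℝ)) :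
    a = ENNReal.ofReal (t ^ 2) * w ∧ b = ENNReal.ofReal ((1 - t) ^ 2) * w := by
  have ha' : a ≠ ∞ := ne_top_of_le_ne_top (ENNReal.mul_ne_top ENNReal.ofReal_ne_top hw) ha
  have hb' : b ≠ ∞ := ne_top_of_le_ne_top (ENNReal.mul_ne_top ENNReal.ofReal_ne_top hw) hb
  obtain ⟨A, hA0, rfl⟩ : ∃ A : ℝ, 0 ≤ A ∧ a = ENNReal.ofReal A :=
    ⟨a.toReal, ENNReal.toReal_nonneg, (ENNReal.ofReal_toReal ha').symm⟩
  obtain ⟨B, hB0, rfl⟩ : ∃ B : ℝ, 0 ≤ B ∧ b = ENNReal.ofReal B :=
    ⟨b.toReal, ENNReal.toReal_nonneg, (ENNReal.ofReal_toReal hb').symm⟩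
  obtain ⟨W, hW0, rfl⟩ : ∃ W : ℝ, 0 ≤ W ∧ w = ENNReal.ofReal W :=
    ⟨w.toReal, ENNReal.toReal_nonneg, (ENNReal.ofReal_toReal hw).symm⟩
  have h2 : (0 : ℝ) ≤ 1 / 2 := by norm_num
  rw [← ENNReal.ofReal_mul (sq_nonneg _), ENNReal.ofReal_le_ofReal_iff (by positivity)] at ha hb
  rw [ENNReal.ofReal_rpow_of_nonneg hW0 h2, ENNReal.ofReal_rpow_of_nonneg hA0 h2,
    ENNReal.ofReal_rpow_of_nonneg hB0 h2, ← ENNReal.ofReal_add (by positivity) (by positivity),
    ENNReal.ofReal_le_ofReal_iff (by positivity)] at htri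
  obtain ⟨h1, h3⟩ := cd_inter_arith_real ht0 ht1 hA0 hB0 hW0 ha hb htri
  rw [← ENNReal.ofReal_mul (sq_nonneg _), ← ENNReal.ofReal_mul (sq_nonneg _), h1, h3]
  exact ⟨rfl, rfl⟩

theorem cd_isInter' [CompleteSpace X] [TopologicalSpace.SeparableSpace X]
    (h₀ : BddDens m μ₀ M₀ o₀ R₀) (h₁ : BddDens m μ₁ M₁ o₁ R₁) [IsProbabilityMeasure π]
    (hgeo : ∀ᵐ γ ∂π, IsGeodesic γ) (hopt : IsOptimalCoupling (endpointCoupling π) μ₀ μ₁) (t : Time) :
    IsInter μ₀ μ₁ (interpolation π t) t := by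
  have := h₀.prob
  have := h₁.prob
  have : IsProbabilityMeasure (interpolation π t) := cd_ent_interp_prob t
  exact cd_inter_arith t.2.1 t.2.2 (cd_W2sq_ne_top h₀ h₁ hopt.1) (cd_W2sq_left_le hgeo hopt t)
    (cd_W2sq_right_le hgeo hopt t) cd_need_triangle

end

end Claimed.Agent.R210.CD.Inter
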