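/-
Row 210 (S0432), layer CD (architect helper269), file Proper:  `ProperSpace X`, existence of geodesics (CD3).
* `cd_packing`:   T ⊆ B̄(x,R) finite, ε-separated (ε > 0).   The balls B̄(a, ε/2), a ∈ T, are pairwise disjoint and contained in B̄(x, R + ε/2).     `cd_ball_le'` with r = ε/2 (w.l.o.g. ε/2 ≤ 2R, otherwise card T ≤ 1) and radius 2R:   m(B̄(x,R)) ≤ m(B̄(a,2R)) ≤ C m(B̄(a,ε/2)).
       Sum over T (`measure_biUnion_finset`):   card T * m(B̄(x,R)) ≤ C m(B̄(x,R+ε/2)).    0 < m(B̄(x,R)) < ∞ (`cd_ball_pos`, `cd_ball_ne_top`; R > 0 w.l.o.g.)  ⟹  card T ≤ n := ⌈C m(B̄(x,R+ε/2))/m(B̄(x,R))⌉.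
* `cd_totallyBounded`:   Mathlib `Metric.packingNumber`, `Metric.isCover_maximalSeparatedSet` (Topology/MetricSpace/CoveringNumbers.lean), or directly: a separated subset of maximal cardinality is an ε-net (`Metric.totallyBounded_iff`).
* `cd_proper'`:   `isCompact_of_totallyBounded_isClosed`, `ProperSpace.mk`.
* `cd_approx_geodesic`:   `cd_exists_plan'` for cd_unif m (B̄(x,δ)), cd_unif m (B̄(y,δ));  the three π-a.e. properties hold simultaneously on a set of full measure, which is nonempty because π univ = 1 (`Filter.Eventually.exists`, `ae_neBot`).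
* `cd_geo_compact`:  = CU5 (P) of layer CU (Arzela-Ascoli; geodesics with end points in bounded sets are equi-Lipschitz with values in a compact ball; the set is closed).     Use the export of `R210/CU/Ifc.lean` when it is on main.
* `cd_geodesic'`:   γ_n from `cd_approx_geodesic` with δ = 1/(n+1) lie in the compact set of `cd_geo_compact` (A = B̄(x,1), B = B̄(y,1));   a cluster point γ (`IsCompact.tendsto_subseq`) is a geodesic, and γ0 = lim γ_n 0 = x, γ1 = y because evaluations are continuous.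
-/
import Claimed.Agent.R210.CD.Dbl
import Claimed.Agent.R210.CU.Ifc

set_option autoImplicit false

open Claims.C0366 Claims.C0366.WeakHessian
open Set Filter MeasureTheory
open scoped ENNReal NNReal Topology
open Claimed.Agent.R210.Defs Claimed.Agent.R210.CD.Defs Claimed.Agent.R210.CD.Basic Claimed.Agent.R210.CO.Ifc
  Claimed.Agent.R210.CD.Ent.Base Claimed.Agent.R210.CD.Ent.Dens Claimed.Agent.R210.CD.Ent.Track Claimed.Agent.R210.CD.Spread Claimed.Agent.R210.CD.BM Claimed.Agent.R210.CD.Dbl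

namespace Claimed.Agent.R210.CD.Proper

noncomputable section

variable {X : Type*} [MetricSpace X] [MeasurableSpace X] [BorelSpace X]
variable {m : Measure X} {K N : ℝ}

theorem cd_packing (hS : Std m K N) (x : X) (R : ℝ) {ε : ℝ} (hε : 0 < ε) :
    ∃ n : ℕ, ∀ T : Finset X, (T : Set X) ⊆ Metric.closedBall x R →
      (∀ a ∈ T, ∀ b ∈ T, a ≠ b → ε < dist a b) → T.card ≤ n := by
  have hr0 : 0 < ε / 2 := by positivity
  have hRabs : 0 ≤ |R| := abs_nonneg R
  obtain ⟨C, hC⟩ := cd_ball_le' hS hr0 (show ε / 2 ≤ 2 * |R| + ε / 2 by linarith)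
  refine ⟨⌈C⌉₊, fun T hT hsep => ?_⟩
  have hρ : 0 < |R| + ε / 2 := by positivity
  have hM0 : m (Metric.closedBall x (|R| + ε / 2)) ≠ 0 := cd_ball_pos hS x hρ
  have hMt : m (Metric.closedBall x (|R| + ε / 2)) ≠ ∞ := cd_ball_ne_top hS x _
  have hTx : ∀ a ∈ T, dist a x ≤ |R| := fun a ha =>
    le_trans (Metric.mem_closedBall.1 (hT (Finset.mem_coe.2 ha))) (le_abs_self R)
  have h1 : ∀ a ∈ T, m (Metric.closedBall x (|R| + ε / 2)) ≤ C * m (Metric.closedBall a (ε / 2)) := by
    intro a ha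
    refine le_trans (measure_mono ?_) (hC a)
    intro y hy
    have hy' : dist y x ≤ |R| + ε / 2 := Metric.mem_closedBall.1 hy
    have h2 : dist x a ≤ |R| := by rw [dist_comm]; exact hTx a ha
    have h3 := dist_triangle y x a
    exact Metric.mem_closedBall.2 (by linarith)
  have hdisj : (T : Set X).PairwiseDisjoint (fun a => Metric.closedBall a (ε / 2)) := by
    intro a ha b hb hab
    refine Metric.closedBall_disjoint_closedBall ?_
    have := hsep a (Finset.mem_coe.1 ha) b (Finset.mem_coe.1 hb) hab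
    linarith
  have hsum : m (⋃ a ∈ T, Metric.closedBall a (ε / 2)) = ∑ a ∈ T, m (Metric.closedBall a (ε / 2)) :=
    measure_biUnion_finset hdisj (fun a _ => Metric.isClosed_closedBall.measurableSet)
  have hsub : (⋃ a ∈ T, Metric.closedBall a (ε / 2)) ⊆ Metric.closedBall x (|R| + ε / 2) := by
    intro y hy
    simp only [Set.mem_iUnion] at hy
    obtain ⟨a, ha, hya⟩ := hy
    have h2 := hTx a ha
    have h3 := dist_triangle y a x
    have h4 : dist y a ≤ ε / 2 := Metric.mem_closedBall.1 hya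
    exact Metric.mem_closedBall.2 (by linarith)
  have hmain : (T.card : ℝ≥0∞) * m (Metric.closedBall x (|R| + ε / 2))
      ≤ C * m (Metric.closedBall x (|R| + ε / 2)) := by
    calc (T.card : ℝ≥0∞) * m (Metric.closedBall x (|R| + ε / 2))
        = ∑ _a ∈ T, m (Metric.closedBall x (|R| + ε / 2)) := by simp
      _ ≤ ∑ a ∈ T, (C : ℝ≥0∞) * m (Metric.closedBall a (ε / 2)) := Finset.sum_le_sum h1
      _ = C * ∑ a ∈ T, m (Metric.closedBall a (ε / 2)) := (Finset.mul_sum _ _ _).symm
      _ = C * m (⋃ a ∈ T, Metric.closedBall a (ε / 2)) := by rw [hsum]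
      _ ≤ C * m (Metric.closedBall x (|R| + ε / 2)) := by gcongr
  have h5 : (T.card : ℝ≥0∞) ≤ C := (ENNReal.mul_le_mul_iff_left hM0 hMt).1 hmain
  have h6 : (T.card : ℝ≥0) ≤ C := by exact_mod_cast h5
  exact Nat.cast_le.1 (le_trans h6 (Nat.le_ceil C))

theorem cd_totallyBounded (hS : Std m K N) (x : X) (R : ℝ) : TotallyBounded (Metric.closedBall x R) := by
  rw [Metric.totallyBounded_iff]
  intro ε hε
  obtain ⟨n, hn⟩ := cd_packing hS x R (half_pos hε)
  by_contra hcon
  push Not at hcon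
  have key : ∀ k : ℕ, ∃ T : Finset X, (T : Set X) ⊆ Metric.closedBall x R ∧
      (∀ a ∈ T, ∀ b ∈ T, a ≠ b → ε / 2 < dist a b) ∧ T.card = k := by
    intro k
    induction k with
    | zero => exact ⟨∅, by simp, by simp, rfl⟩
    | succ k ih =>
      obtain ⟨T, hT1, hT2, hT3⟩ := ih
      have hnot := hcon (T : Set X) T.finite_toSet
      rw [Set.not_subset] at hnot
      obtain ⟨z, hz, hzT⟩ := hnot
      have hzT' : ∀ y ∈ T, ε ≤ dist z y := by
        intro y hy
        by_contra hlt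
        push Not at hlt
        exact hzT (Set.mem_biUnion (Finset.mem_coe.2 hy) (Metric.mem_ball.2 hlt))
      have hznot : z ∉ T := fun h => by
        have h0 := hzT' z h
        rw [dist_self] at h0
        linarith
      classical
      refine ⟨insert z T, ?_, ?_, ?_⟩
      · rw [Finset.coe_insert]
        exact Set.insert_subset hz hT1
      · intro a ha b hb hab
        rw [Finset.mem_insert] at ha hb
        rcases ha with rfl | ha <;> rcases hb with rfl | hb
        · exact absurd rfl hab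
        · have h0 := hzT' b hb
          linarith
        · have h0 := hzT' a ha
          rw [dist_comm]
          linarith
        · exact hT2 a ha b hb hab
      · rw [Finset.card_insert_of_notMem hznot, hT3]
  obtain ⟨T, hT1, hT2, hT3⟩ := key (n + 1)
  have h0 := hn T hT1 hT2
  omega

theorem cd_proper' [CompleteSpace X] (hS : Std m K N) : ProperSpace X :=
  ⟨fun x R => (cd_totallyBounded hS x R).isCompact_of_isClosed
    Metric.isClosed_closedBall⟩

theorem cd_approx_geodesic (hS : Std m K N) (x y : X) {δ : ℝ} (hδ : 0 < δ) :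
    ∃ γ : Curve X, IsGeodesic γ ∧ dist (γ timeZero) x ≤ δ ∧ dist (γ timeOne) y ≤ δ := by
  have h₀ := cd_unif_bddDens (m := m) (o := x) (R := δ) (cd_ball_pos hS x hδ) (cd_ball_ne_top hS x δ)
    (subset_refl (Metric.closedBall x δ))
  have h₁ := cd_unif_bddDens (m := m) (o := y) (R := δ) (cd_ball_pos hS y hδ) (cd_ball_ne_top hS y δ)
    (subset_refl (Metric.closedBall y δ))
  obtain ⟨π, hπ⟩ := cd_exists_plan' hS.cd h₀ h₁
  have := hπ.prob
  have a0 : ∀ᵐ γ ∂π, dist (γ timeZero) x ≤ δ := cd_ent_ae_zero hπ.opt.1 (cd_bdd_conc_ae h₀)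
  have a1 : ∀ᵐ γ ∂π, dist (γ timeOne) y ≤ δ := cd_ent_ae_one hπ.opt.1 (cd_bdd_conc_ae h₁)
  obtain ⟨γ, hγ⟩ := (hπ.geo.and (a0.and a1)).exists
  exact ⟨γ, hγ.1, hγ.2.1, hγ.2.2⟩

theorem cd_geo_compact [ProperSpace X] {A B : Set X} (hA : IsCompact A) (hB : IsCompact B) :
    IsCompact {γ : Curve X | IsGeodesic γ ∧ γ timeZero ∈ A ∧ γ timeOne ∈ B} :=
  Claimed.Agent.R210.CU.Ifc.cu_isCompact_geodesics hA hB

theorem cd_geodesic' [CompleteSpace X] (hS : Std m K N) (x y : X) :
    ∃ γ : Curve X, IsGeodesic γ ∧ γ timeZero = x ∧ γ timeOne = y := by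
  have := cd_proper' hS
  have hK := cd_geo_compact (X := X) (isCompact_closedBall x 1) (isCompact_closedBall y 1)
  have hex : ∀ n : ℕ, ∃ γ : Curve X, IsGeodesic γ ∧ dist (γ timeZero) x ≤ 1 / ((n : ℝ) + 1) ∧
      dist (γ timeOne) y ≤ 1 / ((n : ℝ) + 1) :=
    fun n => cd_approx_geodesic hS x y (by positivity)
  choose γ hγg hγ0 hγ1 using hex
  have hle : ∀ n : ℕ, 1 / ((n : ℝ) + 1) ≤ 1 := by
    intro n
    rw [div_le_one (by positivity)]
    have : (0 : ℝ) ≤ n := Nat.cast_nonneg n
    linarith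
  have hmem : ∀ n, γ n ∈ {γ : Curve X | IsGeodesic γ ∧ γ timeZero ∈ Metric.closedBall x 1 ∧
      γ timeOne ∈ Metric.closedBall y 1} :=
    fun n => ⟨hγg n, (hγ0 n).trans (hle n), (hγ1 n).trans (hle n)⟩
  obtain ⟨σ, hσ, φ, hφ, hlim⟩ := hK.tendsto_subseq hmem
  have hz : Tendsto (fun n : ℕ => 1 / (((φ n : ℕ) : ℝ) + 1)) atTop (𝓝 0) :=
    tendsto_one_div_add_atTop_nhds_zero_nat.comp hφ.tendsto_atTop
  have e0 : Tendsto (fun n => (γ (φ n)) timeZero) atTop (𝓝 (σ timeZero)) :=
    ((continuous_eval_const timeZero).tendsto σ).comp hlim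
  have e1 : Tendsto (fun n => (γ (φ n)) timeOne) atTop (𝓝 (σ timeOne)) :=
    ((continuous_eval_const timeOne).tendsto σ).comp hlim
  have f0 : Tendsto (fun n => (γ (φ n)) timeZero) atTop (𝓝 x) := by
    rw [tendsto_iff_dist_tendsto_zero]
    exact squeeze_zero (fun _ => dist_nonneg) (fun n => hγ0 (φ n)) hz
  have f1 : Tendsto (fun n => (γ (φ n)) timeOne) atTop (𝓝 y) := by
    rw [tendsto_iff_dist_tendsto_zero]
    exact squeeze_zero (fun _ => dist_nonneg) (fun n => hγ1 (φ n)) hz
  exact ⟨σ, hσ.1, tendsto_nhds_unique e0 f0, tendsto_nhds_unique e1 f1⟩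

end

end Claimed.Agent.R210.CD.Proper
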