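/-
Row 210 (S0432), LAYER CD: consequences of the frozen `CurvatureDimension m K N` (K < 0).      Architect helper269;  block CD4 (entropy): sub-architect helper988 (`R210/CD/Ent/*`).
INTERFACE FILE: consumers import only this file.      Namespace `Claimed.Agent.R210.CD.Ifc`;  definitions `Claimed.Agent.R210.CD.Defs` (cd_Plan, cd_pos, cd_unif), `cd_ent_half : Time` (= 1/2) in `Claimed.Agent.R210.CD.Ent.Base`.
   tau(t,θ) = tauCoeff K N t θ  (real version `co_tau`, layer CO).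

 cd_Plan m K N μ₀ μ₁ π      = what the frozen CD condition gives for (μ₀,μ₁):  π probability, a.e. geodesic, optimal end point coupling, Renyi inequality for all N' ≥ N, all t.
 CD0  cd_exists_plan          BddDens μ₀, BddDens μ₁  ⟹  ∃ π, cd_Plan
      cd_interp_prob, cd_interp_zero, cd_interp_one, cd_interp_conc, cd_isInter          ν_t = interpolation π t:  probability, ν_0 = μ₀, ν_1 = μ₁, bounded support, t-intermediate point
      cd_coupling_dist_le'    every coupling of BddDens measures lives on {d ≤ R₀ + d(o₀,o₁) + R₁}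
 CD1  cd_spread               (tau(1-t,D) M₀^(-1/N) + tau(t,D) M₁^(-1/N))^N ≤ m {ρ_t > 0}      if d ≤ D a.e. for the end point coupling of π   [hypothesis (H_D) of GM]
      cd_spread_left          tau(1-t,D)^N / M₀ ≤ m {ρ_t > 0}
      cd_spread_mid           (2 tau(1/2,D))^N / M ≤ m {ρ_{1/2} > 0}   if M₀, M₁ ≤ M
 CD2  cd_bm                   Brunn-Minkowski;     cd_ball_le:  m B̄(x,R) ≤ C(r,R) m B̄(x,r);     cd_doubling, cd_doubling_ball (r ≤ R₀), cd_unifLocDoubling, cd_growth, cd_exp_integrable, cd_goodExp (Defs2.GoodExp m o a for all large a)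
 CD3  cd_proper, cd_geodesic
 CD4  cd_entropy_mid
 CD5  cd_renyi
FILES:  Defs, Basic (measure theory), Spread (CD0, CD1, CD5), BM, Dbl, Exp (CD2), Proper (CD3), Inter, Ent/* (CD4).
-/
import Claimed.Agent.R210.CD.Proper
import Claimed.Agent.R210.CD.Inter
import Claimed.Agent.R210.CD.Exp
import Claimed.Agent.R210.CD.Ent.Main

set_option autoImplicit false

open Claims.C0366 Claims.C0366.WeakHessian
open Set Filter MeasureTheory
open scoped ENNReal NNReal Topology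
open Claimed.Agent.R210.Defs Claimed.Agent.R210.CD.Defs Claimed.Agent.R210.CD.Ent.Base

namespace Claimed.Agent.R210.CD.Ifc

noncomputable section

variable {X : Type*} [MetricSpace X] [MeasurableSpace X] [BorelSpace X]
variable {m μ₀ μ₁ : Measure X} {π : Measure (Curve X)} {M M₀ M₁ : ℝ≥0} {o₀ o₁ : X} {R₀ R₁ K N : ℝ}

/-! ### CD0: the plan -/

theorem cd_exists_plan (hcd : CurvatureDimension m K N) (h₀ : BddDens m μ₀ M₀ o₀ R₀)
    (h₁ : BddDens m μ₁ M₁ o₁ R₁) : ∃ π, cd_Plan m K N μ₀ μ₁ π :=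
  Spread.cd_exists_plan' hcd h₀ h₁

theorem cd_interp_prob (hπ : cd_Plan m K N μ₀ μ₁ π) (t : Time) : IsProbabilityMeasure (interpolation π t) :=
  have := hπ.prob
  cd_ent_interp_prob t

theorem cd_interp_zero (hπ : cd_Plan m K N μ₀ μ₁ π) : interpolation π timeZero = μ₀ :=
  cd_ent_map_zero hπ.opt.1

theorem cd_interp_one (hπ : cd_Plan m K N μ₀ μ₁ π) : interpolation π timeOne = μ₁ :=
  cd_ent_map_one hπ.opt.1

theorem cd_interp_conc (h₀ : BddDens m μ₀ M₀ o₀ R₀) (h₁ : BddDens m μ₁ M₁ o₁ R₁)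
    (hπ : cd_Plan m K N μ₀ μ₁ π) (t : Time) :
    interpolation π t (Metric.closedBall o₀ (2 * R₀ + dist o₀ o₁ + R₁))ᶜ = 0 :=
  Ent.Track.cd_ent_conc h₀ h₁ hπ.geo hπ.opt.1 t

theorem cd_coupling_dist_le' {q : Measure (X × X)} (h₀ : BddDens m μ₀ M₀ o₀ R₀) (h₁ : BddDens m μ₁ M₁ o₁ R₁)
    (hq : IsCoupling q μ₀ μ₁) : ∀ᵐ p ∂q, dist p.1 p.2 ≤ R₀ + dist o₀ o₁ + R₁ :=
  Basic.cd_coupling_dist_le h₀ h₁ hq

theorem cd_isInter [CompleteSpace X] [TopologicalSpace.SeparableSpace X]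
    (h₀ : BddDens m μ₀ M₀ o₀ R₀) (h₁ : BddDens m μ₁ M₁ o₁ R₁) (hπ : cd_Plan m K N μ₀ μ₁ π) (t : Time) :
    IsInter μ₀ μ₁ (interpolation π t) t :=
  have := hπ.prob
  Inter.cd_isInter' h₀ h₁ hπ.geo hπ.opt t

/-! ### CD1: spread -/

theorem cd_spread (hS : Std m K N) (h₀ : BddDens m μ₀ M₀ o₀ R₀) (h₁ : BddDens m μ₁ M₁ o₁ R₁)
    (hπ : cd_Plan m K N μ₀ μ₁ π) {D : ℝ} (hD : ∀ᵐ p ∂(endpointCoupling π), dist p.1 p.2 ≤ D)
    (t : Time) :
    (tauCoeff K N (1 - (t : ℝ)) D * (M₀ : ℝ≥0∞) ^ (-1 / N)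
      + tauCoeff K N (t : ℝ) D * (M₁ : ℝ≥0∞) ^ (-1 / N)) ^ N ≤ m (cd_pos m (interpolation π t)) :=
  Spread.cd_spread' hS h₀ h₁ hπ (Basic.cd_ae_endpoints hD) t

theorem cd_spread_left (hS : Std m K N) (h₀ : BddDens m μ₀ M₀ o₀ R₀) (h₁ : BddDens m μ₁ M₁ o₁ R₁)
    (hπ : cd_Plan m K N μ₀ μ₁ π) {D : ℝ} (hD : ∀ᵐ p ∂(endpointCoupling π), dist p.1 p.2 ≤ D)
    (t : Time) :
    tauCoeff K N (1 - (t : ℝ)) D ^ N * (M₀ : ℝ≥0∞)⁻¹ ≤ m (cd_pos m (interpolation π t)) :=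
  Spread.cd_spread_left' hS h₀ h₁ hπ (Basic.cd_ae_endpoints hD) t

theorem cd_spread_mid (hS : Std m K N) (h₀ : BddDens m μ₀ M₀ o₀ R₀) (h₁ : BddDens m μ₁ M₁ o₁ R₁)
    (hπ : cd_Plan m K N μ₀ μ₁ π) {D : ℝ} (hD : ∀ᵐ p ∂(endpointCoupling π), dist p.1 p.2 ≤ D)
    (hM₀ : M₀ ≤ M) (hM₁ : M₁ ≤ M) :
    (2 * tauCoeff K N (1 / 2) D) ^ N * (M : ℝ≥0∞)⁻¹ ≤ m (cd_pos m (interpolation π cd_ent_half)) :=
  Spread.cd_spread_mid' hS h₀ h₁ hπ (Basic.cd_ae_endpoints hD) hM₀ hM₁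

/-! ### CD2: Brunn-Minkowski, doubling, volume growth -/

theorem cd_bm (hS : Std m K N) {A₀ A₁ S : Set X} (hA₀ : MeasurableSet A₀) (hA₁ : MeasurableSet A₁)
    (hSm : MeasurableSet S) (hb₀ : Bornology.IsBounded A₀) (hb₁ : Bornology.IsBounded A₁)
    (hp₀ : m A₀ ≠ 0) (hp₁ : m A₁ ≠ 0) {D : ℝ} (hD : ∀ x₀ ∈ A₀, ∀ x₁ ∈ A₁, dist x₀ x₁ ≤ D) (t : Time)
    (hS' : ∀ x₀ ∈ A₀, ∀ x₁ ∈ A₁, ∀ z, dist x₀ z = t * dist x₀ x₁ → dist z x₁ = (1 - t) * dist x₀ x₁ → z ∈ S) :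
    (tauCoeff K N (1 - (t : ℝ)) D * (m A₀) ^ (1 / N) + tauCoeff K N (t : ℝ) D * (m A₁) ^ (1 / N)) ^ N
      ≤ m S :=
  BM.cd_bm' hS hA₀ hA₁ hSm hb₀ hb₁ hp₀ hp₁ hD t hS'

theorem cd_ball_le (hS : Std m K N) {r R : ℝ} (hr : 0 < r) (hR : r ≤ R) :
    ∃ C : ℝ≥0, ∀ x : X, m (Metric.closedBall x R) ≤ C * m (Metric.closedBall x r) :=
  Dbl.cd_ball_le' hS hr hR

theorem cd_doubling (hS : Std m K N) (R₀ : ℝ) :
    ∃ C : ℝ≥0, ∀ x : X, ∀ r : ℝ, 0 < r → r ≤ R₀ →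
      m (Metric.closedBall x (2 * r)) ≤ C * m (Metric.closedBall x r) :=
  Dbl.cd_doubling' hS R₀

theorem cd_doubling_ball (hS : Std m K N) (R₀ : ℝ) :
    ∃ C : ℝ≥0, ∀ x : X, ∀ r : ℝ, 0 < r → r ≤ R₀ →
      m (Metric.ball x (2 * r)) ≤ C * m (Metric.ball x r) :=
  Dbl.cd_doubling_ball' hS R₀

theorem cd_unifLocDoubling (hS : Std m K N) : IsUnifLocDoublingMeasure m :=
  Dbl.cd_unifLocDoubling' hS

theorem cd_growth (hS : Std m K N) : ∃ C c : ℝ, 0 < C ∧ 0 < c ∧ ∀ x : X, ∀ R : ℝ,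
    m (Metric.closedBall x R) ≤ ENNReal.ofReal (C * Real.exp (c * R)) * m (Metric.closedBall x 1) :=
  Dbl.cd_growth' hS

/-- `e^{-b d(·,o)}` is integrable for large `b`. -/
theorem cd_exp_integrable (hS : Std m K N) : ∃ c₀ : ℝ, 0 < c₀ ∧ ∀ b : ℝ, c₀ < b → ∀ o : X,
    Integrable (fun x => Real.exp (-b * dist x o)) m :=
  Exp.cd_exp_integrable' hS

theorem cd_goodExp (hS : Std m K N) : ∃ a₀ : ℝ, 0 < a₀ ∧ ∀ a : ℝ, a₀ < a → ∀ o : X,
    Claimed.Agent.R210.Defs2.GoodExp m o a :=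
  Exp.cd_goodExp' hS

/-! ### CD3: properness, geodesics -/

theorem cd_proper [CompleteSpace X] (hS : Std m K N) : ProperSpace X :=
  Proper.cd_proper' hS

theorem cd_geodesic [CompleteSpace X] (hS : Std m K N) (x y : X) :
    ∃ γ : Curve X, IsGeodesic γ ∧ γ timeZero = x ∧ γ timeOne = y :=
  Proper.cd_geodesic' hS x y

/-! ### CD4: entropy at the midpoint -/

theorem cd_entropy_mid [TopologicalSpace.SeparableSpace X] (hS : Std m K N)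
    (h₀ : BddDens m μ₀ M₀ o₀ R₀) (h₁ : BddDens m μ₁ M₁ o₁ R₁) (hπ : cd_Plan m K N μ₀ μ₁ π) :
    interpolation π cd_ent_half ≪ m ∧
    Integrable (fun x => rho m (interpolation π cd_ent_half) x *
      Real.log (rho m (interpolation π cd_ent_half) x)) m ∧
    Ent m (interpolation π cd_ent_half) ≤ Ent m μ₀ / 2 + Ent m μ₁ / 2 - K / 8 * W2sqR μ₀ μ₁ :=
  Ent.Main.cd_ent_main hS h₀ h₁ hπ.prob hπ.geo hπ.opt hπ.ineq

/-! ### CD5: Renyi inequality at time `s` -/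

theorem cd_renyi (hπ : cd_Plan m K N μ₀ μ₁ π) (s : Time) :
    ∫⁻ p, tauCoeff K N (1 - (s : ℝ)) (dist p.1 p.2) * (μ₀.rnDeriv m p.1) ^ (-1 / N) ∂(endpointCoupling π)
      ≤ renyiIntegral m (interpolation π s) N :=
  Spread.cd_renyi' hπ s

end

end Claimed.Agent.R210.CD.Ifc
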